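import Vale.Agent.P011.H305.Odd.AllF

/-!
# Function fields: all degrees and all characteristics
-/

open Module

set_option linter.unusedSectionVars false

namespace Vale.Agent.P011.H305.AllF

open Vale.Agent.P011.H738 (Place SUA Anis IsGlobalFunctionField)
open Vale.Agent.P011.H732F (GK HA IsDiagonal IsOpenPreimage Adiv)
open Vale.Agent.P011.H974.R8 (MPF SolvF ExTF AbF mpf_of_solv solv_double)

/-- **The solvable step in characteristic two**, for all anisotropic algebras. -/
def SolvTwo : Prop :=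
  ∀ (k K A : Type) [Field k] [Field K] [StarRing K] [Ring A] [StarRing A] [Algebra k K]
    [Algebra k A] [Algebra K A] [IsScalarTower k K A] [StarModule K A] (n : ℕ),
    (2 : k) = 0 → IsGlobalFunctionField k → Anis k K A n → 3 ≤ n →
    ∀ (Ω : Type) [Field Ω] [Algebra K Ω] (f : A →ₐ[K] Matrix (Fin n) (Fin n) Ω) (N : ℕ)
      (B : Basis (Fin N) k A), SolvAtF k K f B

variable {k K A Ω : Type} [Field k] [Field K] [StarRing K] [Ring A] [StarRing A]
  [Algebra k K] [Algebra k A] [Algebra K A] [IsScalarTower k K A] [StarModule K A] {n : ℕ}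
  [Field Ω] [Algebra K Ω]

/-- From the solvable step to the full statement, for any anisotropic algebra. -/
theorem all_of_solvAt (hk : IsGlobalFunctionField k) (hA : Anis k K A n) (hn : 3 ≤ n)
    (f : A →ₐ[K] Matrix (Fin n) (Fin n) Ω)
    (h : ∀ (N : ℕ) (B : Basis (Fin N) k A), SolvAtF k K f B) :
    ∃ δ : GK f →* HA A n (Adiv k K A), IsDiagonal δ ∧ DenseRange δ ∧
      ∀ M : Subgroup (GK f), M.index ≠ 0 → IsOpenPreimage δ M ∧
        ((∃ x : A, x ≠ 0 ∧ ¬ IsUnit x) → M = ⊤) := by
  have hfk : FiniteDimensional k K := (H519.quad hA.fixed hA.star_ne).1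
  have hfA : FiniteDimensional K A := FiniteDimensional.of_finrank_pos (by
    rw [hA.finrank_eq]
    positivity)
  have hfkA : FiniteDimensional k A := Module.Finite.trans K A
  obtain ⟨δ, h1, h2, h3⟩ := H305.all_of_solvF hk hA hn f (finBasis k A) (h _ (finBasis k A))
  refine ⟨δ, h1, h2, fun M hM => ⟨h3 M hM, fun hdiv => ?_⟩⟩
  exact H519.R2.eq_top_of_open (fun v hv => H518.R8.adiv_empty hA (by omega) hdiv v hv)
    (h3 M hM)

/-- **The conjecture for all anisotropic outer forms of type `A`** over the global function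
fields of every characteristic. -/
theorem all_ff (hodd : ∀ n, 3 ≤ n → Odd n → SolvG n)
    (hAb : ∀ m, 2 ≤ m → (3 ≤ m → MPF m) → AbF m) (htwo : SolvTwo)
    (hk : IsGlobalFunctionField k) (hA : Anis k K A n) (hn : 3 ≤ n)
    (f : A →ₐ[K] Matrix (Fin n) (Fin n) Ω) :
    ∃ δ : GK f →* HA A n (Adiv k K A), IsDiagonal δ ∧ DenseRange δ ∧
      ∀ M : Subgroup (GK f), M.index ≠ 0 → IsOpenPreimage δ M ∧
        ((∃ x : A, x ≠ 0 ∧ ¬ IsUnit x) → M = ⊤) := by
  by_cases h2 : (2 : k) = 0
  · exact all_of_solvAt hk hA hn f fun N B => htwo k K A n h2 hk hA hn Ω f N B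
  · exact all_of hodd hAb hk hA hn h2 f

end Vale.Agent.P011.H305.AllF
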