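import Vale.Agent.P011.H974.DblF
import Vale.Agent.P011.H511.SymF
import Vale.Agent.P011.H519.FFAll

/-!
# Function fields of odd characteristic: all degrees from the odd degrees and the doubling
-/

open Module

set_option linter.unusedSectionVars false

namespace Vale.Agent.P011.H305.AllF

open Vale.Agent.P011.H738 (Place SUA Anis IsGlobalFunctionField)
open Vale.Agent.P011.H732F (GK HA IsDiagonal IsOpenPreimage Adiv)
open Vale.Agent.P011.H974.R8 (MPF SolvF ExTF AbF mpf_of_solv solv_double)

/-- **The solvable step in degree `n`** for the division algebras over all global function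
fields, of any characteristic. -/
def SolvG (n : ℕ) : Prop :=
  ∀ (k K D : Type) [Field k] [Field K] [StarRing K] [DivisionRing D] [StarRing D] [Algebra k K]
    [Algebra k D] [Algebra K D] [IsScalarTower k K D] [StarModule K D],
    IsGlobalFunctionField k → Anis k K D n →
    ∀ (Ω : Type) [Field Ω] [Algebra K Ω] (f : D →ₐ[K] Matrix (Fin n) (Fin n) Ω) (N : ℕ)
      (B : Basis (Fin N) k D), SolvAtF k K f B

/-- The solvable step for the anisotropic algebras gives the one for the settings. -/
theorem solvF_of_G {n : ℕ} (h : SolvG n) : SolvF n := by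
  intro L K' C _ _ _ _ _ _ _ _ _ _ _ d' s' hS hdeg Ω' _ _ g M B'
  exact h L K' C (H974.R8.isGlobal_of_gff L) (hS.anis hdeg) Ω' g M B'

/-- The symmetric square roots exist. -/
theorem exTF {m : ℕ} (hm : 0 < m) : ExTF m := by
  intro k K D _ _ _ _ _ _ _ _ _ _ d s hS hdeg
  exact H511.SX.exists_tF hS hm hdeg

/-- **The solvable step in every degree**, from the odd degrees and the centralizers. -/
theorem solvF_all (hodd : ∀ n, 3 ≤ n → Odd n → SolvF n)
    (hAb : ∀ m, 2 ≤ m → (3 ≤ m → MPF m) → AbF m) (n : ℕ) (hn : 3 ≤ n) : SolvF n := by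
  induction n using Nat.strong_induction_on with
  | _ n ih =>
    rcases Nat.even_or_odd n with he | ho
    · obtain ⟨m, rfl⟩ := he
      have hm : 2 ≤ m := by omega
      rw [← two_mul]
      refine solv_double hm (exTF (by omega)) (hAb m hm fun h3 => ?_)
      exact mpf_of_solv h3 (ih m (by omega) h3)
    · exact hodd n hn ho

variable {k K A Ω : Type} [Field k] [Field K] [StarRing K] [Ring A] [StarRing A]
  [Algebra k K] [Algebra k A] [Algebra K A] [IsScalarTower k K A] [StarModule K A] {n : ℕ}
  [Field Ω] [Algebra K Ω]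

/-- **The conjecture for the division algebras**, from the solvable step. -/
theorem all_of_div (hk : IsGlobalFunctionField k) (hA : Anis k K A n) (hn : 3 ≤ n)
    (h2 : (2 : k) ≠ 0) (hs : SolvF n) (hdiv : ∀ x : A, x ≠ 0 → IsUnit x)
    (f : A →ₐ[K] Matrix (Fin n) (Fin n) Ω) :
    ∃ δ : GK f →* HA A n (Adiv k K A), IsDiagonal δ ∧ DenseRange δ ∧
      ∀ M : Subgroup (GK f), M.index ≠ 0 → IsOpenPreimage δ M := by
  have hgff : H271.GFF k := H271.gff_of_isGlobal hk
  have hsim := hA.simple
  let _ : DivisionRing A := DivisionRing.ofIsUnitOrEqZero fun x => by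
    by_cases hx : x = 0
    · exact Or.inr hx
    · exact Or.inl (hdiv x hx)
  have hfk : FiniteDimensional k K := (H519.quad hA.fixed hA.star_ne).1
  have hfA : FiniteDimensional K A := FiniteDimensional.of_finrank_pos (by
    rw [hA.finrank_eq]
    positivity)
  have hfkA : FiniteDimensional k A := Module.Finite.trans K A
  obtain ⟨d, s, hS⟩ := H305.exists_setF hA (by omega) h2
  exact H305.all_of_solvF hk hA hn f (finBasis k A)
    (hs k K A d s hS hA.finrank_eq Ω f _ (finBasis k A))

/-- **The conjecture for all anisotropic outer forms of type `A`** over a global function field of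
odd characteristic, from the odd degrees and the centralizers. -/
theorem all_of (hodd : ∀ n, 3 ≤ n → Odd n → SolvG n)
    (hAb : ∀ m, 2 ≤ m → (3 ≤ m → MPF m) → AbF m)
    (hk : IsGlobalFunctionField k) (hA : Anis k K A n) (hn : 3 ≤ n)
    (h2 : (2 : k) ≠ 0) (f : A →ₐ[K] Matrix (Fin n) (Fin n) Ω) :
    ∃ δ : GK f →* HA A n (Adiv k K A), IsDiagonal δ ∧ DenseRange δ ∧
      ∀ M : Subgroup (GK f), M.index ≠ 0 → IsOpenPreimage δ M ∧
        ((∃ x : A, x ≠ 0 ∧ ¬ IsUnit x) → M = ⊤) := by
  by_cases h : ∃ x : A, x ≠ 0 ∧ ¬ IsUnit x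
  · exact H519.R2.small_all hk hA hn h2 (Or.inr h) f
  · push Not at h
    obtain ⟨δ, h1, h3, h4⟩ := all_of_div hk hA hn h2
      (solvF_all (fun n hn ho => solvF_of_G (hodd n hn ho)) hAb n hn) h f
    exact ⟨δ, h1, h3, fun M hM => ⟨h4 M hM, fun ⟨x, hx, hx'⟩ => (hx' (h x hx)).elim⟩⟩

end Vale.Agent.P011.H305.AllF
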