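import Vale.Agent.P011.H305.Odd.FinF
import Vale.Agent.P011.H871.C2.Main
import Vale.Agent.P011.H543.C2.GoodE

/-!
# All anisotropic outer forms of type `A` over all global function fields
-/

open Module

set_option linter.unusedSectionVars false

namespace Vale.Agent.P011.H305.AllF

open Vale.Agent.P011.H738 (Place SUA Anis IsGlobalFunctionField)
open Vale.Agent.P011.H732F (GK HA IsDiagonal IsOpenPreimage Adiv)
open Vale.Agent.P011.H871.C2 (GE2 Solv2 SolvO)

/-- The good fields in characteristic two. -/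
theorem goodFields : ∀ m, 2 ≤ m → GE2 m := by
  intro m hm k K A _ _ _ _ _ _ _ _ _ _ _ h2 hA κ ν hκ hν a t hts htt ha hdiv
  refine H543.C2.exists_goodE2 h2 (by omega) hA hκ ?_ hts htt ha hdiv
  rw [hν]
  congr 1
  linear_combination (-a) * h2

/-- **The solvable step in characteristic two**, every degree. -/
theorem solvTwo : SolvTwo := by
  intro k K A _ _ _ _ _ _ _ _ _ _ n h2 hk hA hn Ω _ _ f N B
  have hgff : H271.GFF k := H271.gff_of_isGlobal hk
  refine H871.C2.solv2_all (fun n hn ho => ?_) goodFields n hn k K A h2 hA Ω f N B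
  intro k K D _ _ _ _ _ _ _ _ _ _ _ h2 hA Ω _ _ f N B
  exact H271.Odd.solvAtF_odd (H974.R8.isGlobal_of_gff k) hA hn ho f B

variable {k K A Ω : Type} [Field k] [Field K] [StarRing K] [Ring A] [StarRing A]
  [Algebra k K] [Algebra k A] [Algebra K A] [IsScalarTower k K A] [StarModule K A] {n : ℕ}
  [Field Ω] [Algebra K Ω]

/-- **The conjecture for all anisotropic outer forms of type `A`** over all global function
fields. -/
theorem all_char (hk : IsGlobalFunctionField k) (hA : Anis k K A n) (hn : 3 ≤ n)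
    (f : A →ₐ[K] Matrix (Fin n) (Fin n) Ω) :
    ∃ δ : GK f →* HA A n (Adiv k K A), IsDiagonal δ ∧ DenseRange δ ∧
      ∀ M : Subgroup (GK f), M.index ≠ 0 → IsOpenPreimage δ M ∧
        ((∃ x : A, x ≠ 0 ∧ ¬ IsUnit x) → M = ⊤) :=
  all_char_of solvTwo hk hA hn f

end Vale.Agent.P011.H305.AllF
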