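import Vale.Agent.P011.H305.Odd.AllC
import Vale.Agent.P011.H271.Odd.SolvOdd
import Vale.Agent.P011.H511.AbF

/-!
# Function fields of characteristic not two: all anisotropic outer forms of type `A`
-/

open Module

set_option linter.unusedSectionVars false

namespace Vale.Agent.P011.H305.AllF

open Vale.Agent.P011.H738 (Place SUA Anis IsGlobalFunctionField)
open Vale.Agent.P011.H732F (GK HA IsDiagonal IsOpenPreimage Adiv)

/-- **The solvable step in the odd degrees**, every characteristic. -/
theorem solvG_odd : ∀ n, 3 ≤ n → Odd n → SolvG n :=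
  fun _ hn ho _ _ _ _ _ _ _ _ _ _ _ _ _ hk hA _ _ _ f _ B => H271.Odd.solvAtF_odd hk hA hn ho f B

/-- The elements of the centralizers, characteristic not two. -/
theorem abF_all : ∀ m, 2 ≤ m → (3 ≤ m → H974.R8.MPF m) → H974.R8.AbF m :=
  fun _ hm h => H511.Ab.abF hm h

variable {k K A Ω : Type} [Field k] [Field K] [StarRing K] [Ring A] [StarRing A]
  [Algebra k K] [Algebra k A] [Algebra K A] [IsScalarTower k K A] [StarModule K A] {n : ℕ}
  [Field Ω] [Algebra K Ω]

/-- **The conjecture for all anisotropic outer forms of type `A`** over the global function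
fields of characteristic not two. -/
theorem all_odd (hk : IsGlobalFunctionField k) (hA : Anis k K A n) (hn : 3 ≤ n)
    (h2 : (2 : k) ≠ 0) (f : A →ₐ[K] Matrix (Fin n) (Fin n) Ω) :
    ∃ δ : GK f →* HA A n (Adiv k K A), IsDiagonal δ ∧ DenseRange δ ∧
      ∀ M : Subgroup (GK f), M.index ≠ 0 → IsOpenPreimage δ M ∧
        ((∃ x : A, x ≠ 0 ∧ ¬ IsUnit x) → M = ⊤) :=
  all_of solvG_odd abF_all hk hA hn h2 f

/-- **The conjecture for all anisotropic outer forms of type `A`** over all global function
fields, from the solvable step in characteristic two. -/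
theorem all_char_of (htwo : SolvTwo) (hk : IsGlobalFunctionField k) (hA : Anis k K A n)
    (hn : 3 ≤ n) (f : A →ₐ[K] Matrix (Fin n) (Fin n) Ω) :
    ∃ δ : GK f →* HA A n (Adiv k K A), IsDiagonal δ ∧ DenseRange δ ∧
      ∀ M : Subgroup (GK f), M.index ≠ 0 → IsOpenPreimage δ M ∧
        ((∃ x : A, x ≠ 0 ∧ ¬ IsUnit x) → M = ⊤) :=
  all_ff solvG_odd abF_all htwo hk hA hn f

end Vale.Agent.P011.H305.AllF
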