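import Vale.Agent.P011.H305.Odd.AllC
import Vale.Agent.P011.H271.Odd.AsmF
import Vale.Agent.P011.H511.AbF

/-!
# Function fields: all degrees from the three modules in odd degree
-/

open Module

set_option linter.unusedSectionVars false

namespace Vale.Agent.P011.H305.AllF

open Vale.Agent.P011.H738 (Place SUA Anis IsGlobalFunctionField)
open Vale.Agent.P011.H732F (GK HA IsDiagonal IsOpenPreimage Adiv)
open Vale.Agent.P011.H271.Odd (ModEAll ModRWSep ModRWIns)

/-- The elements of the centralizers, characteristic not two. -/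
theorem hab : ∀ m, 2 ≤ m → (3 ≤ m → H974.R8.MPF m) → H974.R8.AbF m :=
  fun _ hm h => H511.Ab.abF hm h

/-- **The odd degrees**, from the three modules. -/
theorem solvG_odd_of (hE : ∀ n, 3 ≤ n → Odd n → ModEAll n)
    (h1 : ∀ n, 3 ≤ n → Odd n → ModRWSep n) (h2 : ∀ n, 3 ≤ n → Odd n → ModRWIns n) :
    ∀ n, 3 ≤ n → Odd n → SolvG n :=
  fun n hn ho => H271.Odd.solvG_of hn ho (hE n hn ho) (h1 n hn ho) (h2 n hn ho)

variable {k K A Ω : Type} [Field k] [Field K] [StarRing K] [Ring A] [StarRing A]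
  [Algebra k K] [Algebra k A] [Algebra K A] [IsScalarTower k K A] [StarModule K A] {n : ℕ}
  [Field Ω] [Algebra K Ω]

/-- **All degrees, characteristic not two**, from the three modules in odd degree. -/
theorem all_odd_of (hE : ∀ n, 3 ≤ n → Odd n → ModEAll n)
    (h1 : ∀ n, 3 ≤ n → Odd n → ModRWSep n) (h2 : ∀ n, 3 ≤ n → Odd n → ModRWIns n)
    (hk : IsGlobalFunctionField k) (hA : Anis k K A n) (hn : 3 ≤ n)
    (h20 : (2 : k) ≠ 0) (f : A →ₐ[K] Matrix (Fin n) (Fin n) Ω) :
    ∃ δ : GK f →* HA A n (Adiv k K A), IsDiagonal δ ∧ DenseRange δ ∧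
      ∀ M : Subgroup (GK f), M.index ≠ 0 → IsOpenPreimage δ M ∧
        ((∃ x : A, x ≠ 0 ∧ ¬ IsUnit x) → M = ⊤) :=
  all_of (solvG_odd_of hE h1 h2) hab hk hA hn h20 f

end Vale.Agent.P011.H305.AllF
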